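import Vale.Agent.P356T92.Defs
import Vale.Agent.P356.Defs
import Mathlib.Analysis.Matrix.HermitianFunctionalCalculus
import Mathlib.Analysis.CStarAlgebra.Matrix
import Mathlib.Analysis.CStarAlgebra.ContinuousFunctionalCalculus.Unique
import Mathlib.Analysis.InnerProductSpace.Trace

/-!
# P356: operators and their matrices in orthonormal bases
-/

open scoped TensorProduct InnerProductSpace Matrix ComplexOrder
open Module InnerProductSpace

set_option linter.unusedSectionVars false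

namespace Vale.Agent.P356T

variable {ι H : Type} [Fintype ι] [DecidableEq ι]
  [NormedAddCommGroup H] [InnerProductSpace ℂ H] [CompleteSpace H]

/-- operators and matrices -/
noncomputable def mat (b : OrthonormalBasis ι ℂ H) : (H →L[ℂ] H) ≃⋆ₐ[ℂ] Matrix ι ι ℂ :=
  b.repr.conjStarAlgEquiv.trans (Matrix.toEuclideanCLM (n := ι) (𝕜 := ℂ)).symm

/-- coordinates -/
noncomputable def co (b : OrthonormalBasis ι ℂ H) (x : H) : ι → ℂ := (b.repr x).ofLp

theorem co_apply (b : OrthonormalBasis ι ℂ H) (x : H) (i : ι) : co b x i = ⟪b i, x⟫_ℂ :=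
  b.repr_apply_apply x i

theorem co_surj (b : OrthonormalBasis ι ℂ H) (ψ : ι → ℂ) : ∃ x, ψ = co b x :=
  ⟨b.repr.symm (WithLp.toLp 2 ψ), by simp [co]⟩

theorem mat_mulVec (b : OrthonormalBasis ι ℂ H) (T : H →L[ℂ] H) (x : H) :
    mat b T *ᵥ co b x = co b (T x) := by
  have h : Matrix.toEuclideanCLM (n := ι) (𝕜 := ℂ) (mat b T) = b.repr.conjStarAlgEquiv T :=
    StarAlgEquiv.apply_symm_apply _ _
  rw [co, ← Matrix.ofLp_toEuclideanCLM, h]
  simp [co]

theorem co_basis (b : OrthonormalBasis ι ℂ H) (j : ι) : co b (b j) = Pi.single j 1 := by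
  simp [co]

theorem mat_apply (b : OrthonormalBasis ι ℂ H) (T : H →L[ℂ] H) (i j : ι) :
    mat b T i j = ⟪b i, T (b j)⟫_ℂ := by
  rw [← co_apply, ← mat_mulVec, co_basis, Matrix.mulVec_single_one]
  rfl

theorem nsq_co (b : OrthonormalBasis ι ℂ H) (x : H) : P356.nsq (co b x) = ‖x‖ ^ 2 := by
  rw [← b.repr.norm_map x, EuclideanSpace.norm_sq_eq]
  rfl

theorem dot_co (b : OrthonormalBasis ι ℂ H) (x y : H) : star (co b x) ⬝ᵥ co b y = ⟪x, y⟫_ℂ := by
  rw [← b.sum_inner_mul_inner x y, dotProduct]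
  refine Finset.sum_congr rfl fun i _ => ?_
  rw [Pi.star_apply, co_apply, co_apply, ← inner_conj_symm x (b i)]
  rfl

theorem herm_mat (b : OrthonormalBasis ι ℂ H) {T : H →L[ℂ] H} (h : IsSelfAdjoint T) :
    (mat b T).IsHermitian := (h.map (mat b) : IsSelfAdjoint (mat b T))

theorem norm_mat (b : OrthonormalBasis ι ℂ H) {T : H →L[ℂ] H} {J : ℝ} (h : ‖T‖ ≤ J) :
    P356.OpNormLe (mat b T) J := by
  intro ψ
  obtain ⟨x, rfl⟩ := co_surj b ψ
  rw [mat_mulVec, nsq_co, nsq_co, ← mul_pow]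
  exact pow_le_pow_left₀ (norm_nonneg _) (T.le_of_opNorm_le h x) 2

theorem gapped_mat (b : OrthonormalBasis ι ℂ H) {T : H →L[ℂ] H} {Δ E : ℝ} {Ω : H}
    (h : Gap T Δ E Ω) : P356.GappedGround (mat b T) Δ E (co b Ω) := by
  obtain ⟨-, -, h1, h2, h3⟩ := h
  refine ⟨by rw [nsq_co, h1, one_pow], by rw [mat_mulVec, h2, co, map_smul]; rfl, fun ψ => ?_⟩
  obtain ⟨x, rfl⟩ := co_surj b ψ
  have h4 := ((ContinuousLinearMap.le_def _ _).1 h3).re_inner_nonneg_right x
  rw [mat_mulVec, dot_co, dot_co, nsq_co]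
  have h5 : ⟪x, ⟪Ω, x⟫_ℂ • Ω⟫_ℂ = ((‖⟪Ω, x⟫_ℂ‖ ^ 2 : ℝ) : ℂ) := by
    rw [inner_smul_right, ← inner_conj_symm x Ω, Complex.mul_conj, Complex.normSq_eq_norm_sq]
  have h6 : ⟪x, x⟫_ℂ = ((‖x‖ ^ 2 : ℝ) : ℂ) := by
    rw [inner_self_eq_norm_sq_to_K]
    simp
  simp only [sub_apply, smul_apply, one_apply_eq_self, rankOne_apply, inner_sub_right, inner_smul_right (𝕜 := ℂ) x x,
    inner_smul_right (𝕜 := ℂ) x (x - _), h5, h6, RCLike.re_to_complex, Complex.sub_re,
    ← Complex.ofReal_mul, ← Complex.ofReal_sub, Complex.ofReal_re] at h4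
  linarith

theorem trace_mat (b : OrthonormalBasis ι ℂ H) (T : H →L[ℂ] H) :
    LinearMap.trace ℂ H T.toLinearMap = (mat b T).trace := by
  rw [LinearMap.trace_eq_sum_inner _ b, Matrix.trace]
  exact Finset.sum_congr rfl fun i _ => (mat_apply b T i i).symm

theorem trace_cfc {M : Matrix ι ι ℂ} (hM : M.IsHermitian) (f : ℝ → ℝ) :
    (cfc f M).trace = ((∑ i, f (hM.eigenvalues i) : ℝ) : ℂ) := by
  rw [hM.cfc_eq, Matrix.IsHermitian.cfc, Unitary.conjStarAlgAut_apply, Matrix.trace_mul_comm,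
    ← mul_assoc]
  simp

theorem entropy_mat (b : OrthonormalBasis ι ℂ H) {ρ : H →L[ℂ] H} (h : IsSelfAdjoint ρ) :
    entropy ρ = (P356.vnEntropy (mat b ρ) : ℝ) := by
  have hM := herm_mat b h
  have : FiniteDimensional ℂ H := Module.Finite.of_basis b.toBasis
  have hfin : (spectrum ℝ (mat b ρ)).Finite := Matrix.finite_real_spectrum
  have hsp : spectrum ℝ (mat b ρ) = spectrum ℝ ρ :=
    AlgEquiv.spectrum_eq ((mat b).toAlgEquiv.restrictScalars ℝ) ρ
  have hc : Continuous (mat b) :=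
    LinearMap.continuous_of_finiteDimensional (mat b).toAlgEquiv.toLinearMap
  have h1 : mat b (CFC.log ρ) = cfc Real.log (mat b ρ) :=
    StarAlgHomClass.map_cfc (S := ℂ) (mat b) Real.log ρ ((hsp ▸ hfin).continuousOn _) hc h hM
  have h2 : mat b ρ * cfc Real.log (mat b ρ) = cfc (fun x : ℝ => x * Real.log x) (mat b ρ) := by
    rw [cfc_mul _ _ _ (hfin.continuousOn _) (hfin.continuousOn _), 
      cfc_id' ℝ (mat b ρ) hM.isSelfAdjoint]
  rw [entropy, trace_mat b, map_mul, h1, h2, trace_cfc hM, P356.vnEntropy, dif_pos hM]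
  simp [Real.negMulLog]

theorem pos_of_mat (b : OrthonormalBasis ι ℂ H) {ρ : H →L[ℂ] H} (h : (mat b ρ).PosSemidef) :
    0 ≤ ρ := by
  rw [ContinuousLinearMap.nonneg_iff_isPositive, ← ContinuousLinearMap.isPositive_toLinearMap_iff,
    ← LinearMap.posSemidef_toMatrix_iff b]
  have h1 : LinearMap.toMatrix b.toBasis b.toBasis ρ.toLinearMap = mat b ρ := by
    ext i j
    rw [mat_apply, LinearMap.toMatrix_apply, OrthonormalBasis.coe_toBasis_repr_apply,
      OrthonormalBasis.repr_apply_apply]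
    rfl
  rw [h1]
  exact h

end Vale.Agent.P356T
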