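import Mathlib.LinearAlgebra.PiTensorProduct.Basis
import Mathlib.LinearAlgebra.PiTensorProduct.Finite
import Mathlib.LinearAlgebra.Contraction
import Mathlib.LinearAlgebra.Trace
import Mathlib.Analysis.InnerProductSpace.StarOrder
import Mathlib.Analysis.CStarAlgebra.ContinuousLinearMap
import Mathlib.Analysis.SpecialFunctions.ContinuousFunctionalCalculus.ExpLog.Basic
import Mathlib.Data.Sym.Sym2
import Mathlib.Data.Set.Card

/-!
# P356: the objects of the problem, on the tensor product of the spaces `ℂ ^ q`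
-/

open scoped TensorProduct InnerProductSpace
open Module InnerProductSpace

namespace Vale.Agent.P356T

/-- the square `Λ_L = {1, …, L}²` in `ℤ²` -/
noncomputable def square (L : ℕ) : Finset (ℤ × ℤ) := Finset.Icc 1 (L : ℤ) ×ˢ Finset.Icc 1 (L : ℤ)

/-- the `ℓ¹` distance -/
def d1 (x y : ℤ × ℤ) : ℤ := |x.1 - y.1| + |x.2 - y.2|

/-- the edge boundary: pairs `{x, y}` with `x ∈ A`, `y ∈ Λ_L \ A` and `|x - y|₁ = 1` -/
def edgeBoundary {L : ℕ} (A : Finset (square L)) : Set (Sym2 (square L)) :=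
  {p | ∃ x ∈ A, ∃ y ∉ A, d1 x.1 y.1 = 1 ∧ p = s(x, y)}

/-- the nonempty subsets of `Λ_L` of `ℓ¹` diameter at most `R` -/
noncomputable def small (L R : ℕ) : Finset (Finset (square L)) :=
  {X | X.Nonempty ∧ ∀ x ∈ X, ∀ y ∈ X, d1 x.1 y.1 ≤ R}

/-- the tensor product of copies of `ℂ ^ q`, one for each site in `V` -/
abbrev Tn (q : ℕ) (V : Type) : Type := ⨂[ℂ] _ : V, EuclideanSpace ℂ (Fin q)

variable {q L : ℕ} {V H K : Type} [Fintype V] [DecidableEq V]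
  [NormedAddCommGroup H] [InnerProductSpace ℂ H] [CompleteSpace H]
  [NormedAddCommGroup K] [InnerProductSpace ℂ K] [CompleteSpace K]

/-- `e` identifies the tensor product with the Hilbert space `H`, and the inner product of two
product vectors is the product of the inner products -/
def IsTensor (e : Tn q V ≃ₗ[ℂ] H) : Prop :=
  ∀ u v : V → EuclideanSpace ℂ (Fin q),
    ⟪e (⨂ₜ[ℂ] x, u x), e (⨂ₜ[ℂ] x, v x)⟫_ℂ = ∏ x, ⟪u x, v x⟫_ℂ

/-- grouping the factors in `X` and the factors outside `X` -/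
noncomputable def split (q : ℕ) (X : Finset V) :
    Tn q X ⊗[ℂ] Tn q {x // x ∉ X} ≃ₗ[ℂ] Tn q V :=
  PiTensorProduct.tmulEquiv ℂ _ ≪≫ₗ
    PiTensorProduct.reindex ℂ (fun _ => EuclideanSpace ℂ (Fin q)) (Equiv.sumCompl (· ∈ X))

/-- `h = k ⊗ 1` acts on the tensor factors in `X` and as the identity elsewhere -/
def ActsOn (e : Tn q V ≃ₗ[ℂ] H) (X : Finset V) (h : H →L[ℂ] H) : Prop :=
  ∃ k : End ℂ (Tn q X), ∀ a b, h (e (split q X (a ⊗ₜ b))) = e (split q X (k a ⊗ₜ b))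

/-- admissible Hamiltonians -/
def Admissible (e : Tn q (square L) ≃ₗ[ℂ] H) (R : ℕ) (J : ℝ) (T : H →L[ℂ] H) : Prop :=
  ∃ h : Finset (square L) → H →L[ℂ] H, T = ∑ X ∈ small L R, h X ∧
    ∀ X ∈ small L R, IsSelfAdjoint (h X) ∧ ActsOn e X (h X) ∧ ‖h X‖ ≤ J

/-- the lowest eigenvalue `E` of `T` is simple, with unit eigenvector `Ω`, and
`T - E ≥ Δ (1 - |Ω⟩⟨Ω|)` -/
def Gap (T : H →L[ℂ] H) (Δ E : ℝ) (Ω : H) : Prop :=
  IsLeast {μ : ℝ | End.HasEigenvalue (T : End ℂ H) μ} E ∧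
    finrank ℂ (End.eigenspace (T : End ℂ H) E) = 1 ∧ ‖Ω‖ = 1 ∧ T Ω = (E : ℂ) • Ω ∧
      (Δ : ℂ) • (1 - rankOne ℂ Ω Ω) ≤ T - (E : ℂ) • 1

/-- the partial trace over the second factor: `a ⊗ b ↦ Tr(b) a` -/
noncomputable def ptrace (M N : Type) [AddCommGroup M] [Module ℂ M] [FiniteDimensional ℂ M]
    [AddCommGroup N] [Module ℂ N] [FiniteDimensional ℂ N] : End ℂ (M ⊗[ℂ] N) →ₗ[ℂ] End ℂ M :=
  (TensorProduct.rid ℂ (End ℂ M)).toLinearMap ∘ₗ (LinearMap.trace ℂ N).lTensor (End ℂ M) ∘ₗ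
    (homTensorHomEquiv ℂ M N M N).symm.toLinearMap

/-- `ρ = Tr_{V \ A} |Ω⟩⟨Ω|`, an operator on the Hilbert space `K` of the factors in `A` -/
def IsReduced (e : Tn q V ≃ₗ[ℂ] H) (Ω : H) (A : Finset V) (f : Tn q A ≃ₗ[ℂ] K)
    (ρ : K →L[ℂ] K) : Prop :=
  (ρ : End ℂ K) =
    f.conj (ptrace _ _ ((split q A ≪≫ₗ e).symm.conj (rankOne ℂ Ω Ω : H →L[ℂ] H).toLinearMap))

/-- `- Tr ρ log ρ` -/
noncomputable def entropy (ρ : K →L[ℂ] K) : ℂ :=
  -LinearMap.trace ℂ K (ρ * CFC.log ρ : K →L[ℂ] K).toLinearMap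

end Vale.Agent.P356T
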