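import Vale.Agent.P356T92.Main

/-!
# P356: gapped admissible Hamiltonians exist
-/

open scoped TensorProduct InnerProductSpace Matrix ComplexOrder
open Module InnerProductSpace

set_option linter.unusedSectionVars false

namespace Vale.Agent.P356T

variable {q L : ℕ} {V H : Type} [Fintype V] [DecidableEq V]
  [NormedAddCommGroup H] [InnerProductSpace ℂ H] [CompleteSpace H]

theorem gap_of {T : H →L[ℂ] H} {Δ E : ℝ} {Ω : H} (hΔ : 0 < Δ) (h1 : ‖Ω‖ = 1)
    (h2 : T Ω = (E : ℂ) • Ω) (h3 : (Δ : ℂ) • (1 - rankOne ℂ Ω Ω) ≤ T - (E : ℂ) • 1) :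
    Gap T Δ E Ω := by
  have h0 : Ω ≠ 0 := by
    rintro rfl
    simp at h1
  have key : ∀ (x : H) (μ : ℝ), T x = (μ : ℂ) • x →
      Δ * (‖x‖ ^ 2 - ‖⟪Ω, x⟫_ℂ‖ ^ 2) ≤ (μ - E) * ‖x‖ ^ 2 := by
    intro x μ hx
    have h4 := ((ContinuousLinearMap.le_def _ _).1 h3).re_inner_nonneg_right x
    have h5 : ⟪x, ⟪Ω, x⟫_ℂ • Ω⟫_ℂ = ((‖⟪Ω, x⟫_ℂ‖ ^ 2 : ℝ) : ℂ) := by
      rw [inner_smul_right, ← inner_conj_symm x Ω, Complex.mul_conj, Complex.normSq_eq_norm_sq]
    have h6 : ⟪x, x⟫_ℂ = ((‖x‖ ^ 2 : ℝ) : ℂ) := by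
      rw [inner_self_eq_norm_sq_to_K]
      simp
    simp only [sub_apply, smul_apply, one_apply_eq_self, rankOne_apply, hx, inner_sub_right,
      inner_smul_right (𝕜 := ℂ) x x, inner_smul_right (𝕜 := ℂ) x (x - _), h5, h6,
      RCLike.re_to_complex, ← Complex.ofReal_mul, ← Complex.ofReal_sub, Complex.ofReal_re] at h4
    linarith
  have cs : ∀ x : H, ‖⟪Ω, x⟫_ℂ‖ ≤ ‖x‖ := fun x => by
    simpa [h1] using norm_inner_le_norm (𝕜 := ℂ) Ω x
  refine ⟨⟨End.hasEigenvalue_of_hasEigenvector ⟨End.mem_eigenspace_iff.2 h2, h0⟩, fun μ hμ => ?_⟩,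
    ?_, h1, h2, h3⟩
  · obtain ⟨x, hx⟩ := End.HasEigenvalue.exists_hasEigenvector hμ
    have h4 := key x μ hx.apply_eq_smul
    have h5 : 0 < ‖x‖ ^ 2 := pow_pos (norm_pos_iff.2 hx.2) 2
    have h6 := pow_le_pow_left₀ (norm_nonneg _) (cs x) 2
    have h7 : 0 ≤ (μ - E) * ‖x‖ ^ 2 := (mul_nonneg hΔ.le (sub_nonneg.2 h6)).trans h4
    exact sub_nonneg.1 (nonneg_of_mul_nonneg_left h7 h5)
  · suffices h : End.eigenspace (T : End ℂ H) E = ℂ ∙ Ω by rw [h, finrank_span_singleton h0]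
    refine le_antisymm (fun x hx => ?_)
      ((Submodule.span_singleton_le_iff_mem _ _).2 (End.mem_eigenspace_iff.2 h2))
    have h4 := key x E (End.mem_eigenspace_iff.1 hx)
    rw [sub_self, zero_mul] at h4
    have h5 : ‖x‖ ^ 2 ≤ ‖⟪Ω, x⟫_ℂ‖ ^ 2 := sub_nonpos.1 (nonpos_of_mul_nonpos_right h4 hΔ)
    have h6 : ‖⟪Ω, x⟫_ℂ‖ = ‖Ω‖ * ‖x‖ := by
      rw [h1, one_mul]
      exact le_antisymm (cs x) (le_of_sq_le_sq h5 (norm_nonneg _))
    rcases eq_or_ne x 0 with rfl | hx0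
    · exact zero_mem _
    · obtain ⟨r, -, rfl⟩ := (norm_inner_eq_norm_iff h0 hx0).1 h6
      exact Submodule.smul_mem _ _ (Submodule.mem_span_singleton_self Ω)

/-- a diagonal operator -/
noncomputable def dg {ι : Type} [Fintype ι] [DecidableEq ι] (b : OrthonormalBasis ι ℂ H)
    (d : ι → ℝ) : H →L[ℂ] H := (mat b).symm (Matrix.diagonal fun i => (d i : ℂ))

section

variable {ι : Type} [Fintype ι] [DecidableEq ι] (b : OrthonormalBasis ι ℂ H) (d : ι → ℝ)

theorem mat_dg : mat b (dg b d) = Matrix.diagonal fun i => (d i : ℂ) :=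
  StarAlgEquiv.apply_symm_apply _ _

theorem co_dg (x : H) (i : ι) : co b (dg b d x) i = d i * co b x i := by
  rw [← mat_mulVec, mat_dg, Matrix.mulVec_diagonal]

theorem dg_basis (j : ι) : dg b d (b j) = (d j : ℂ) • b j := by
  apply b.repr.injective
  ext i
  refine (co_dg b d _ i).trans ?_
  rw [co_basis, map_smul, b.repr_self]
  by_cases h : i = j <;> simp [h]

theorem dg_sa : IsSelfAdjoint (dg b d) :=
  IsSelfAdjoint.map (Matrix.isHermitian_diagonal_iff.2 fun _ => Complex.conj_ofReal _ :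
    (Matrix.diagonal fun i => (d i : ℂ)).IsHermitian).isSelfAdjoint (mat b).symm

theorem dg_norm {J : ℝ} (hJ : 0 ≤ J) (h : ∀ i, |d i| ≤ J) : ‖dg b d‖ ≤ J := by
  refine ContinuousLinearMap.opNorm_le_bound _ hJ fun x => le_of_sq_le_sq ?_ (by positivity)
  rw [mul_pow, ← nsq_co b, ← nsq_co b, P356.nsq, P356.nsq, Finset.mul_sum]
  refine Finset.sum_le_sum fun i _ => ?_
  rw [co_dg, norm_mul, mul_pow, Complex.norm_real, Real.norm_eq_abs]
  exact mul_le_mul_of_nonneg_right (pow_le_pow_left₀ (abs_nonneg _) (h i) 2) (sq_nonneg _)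

end

theorem dg_acts {e : Tn q V ≃ₗ[ℂ] H} (he : IsTensor e) (X : Finset V) (d : (X → Fin q) → ℝ) :
    ActsOn e X (dg (onb he) fun s => d fun x => s x) := by
  refine ⟨(bs q X).constr ℂ fun a => (d a : ℂ) • bs q X a, fun a c => ?_⟩
  have h : (dg (onb he) fun s => d fun x => s x).toLinearMap ∘ₗ (split q X ≪≫ₗ e).toLinearMap =
      (split q X ≪≫ₗ e).toLinearMap ∘ₗ
        ((bs q X).constr ℂ fun a => (d a : ℂ) • bs q X a).rTensor _ := by
    refine ((bs q X).tensorProduct (bs q {x // x ∉ X})).ext fun p => ?_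
    have h1 : (fun x : X => gl X (p.1, p.2) x) = p.1 := funext fun x => by simp [gl]
    simp only [Basis.tensorProduct_apply', LinearMap.comp_apply, LinearEquiv.coe_coe,
      LinearEquiv.trans_apply, ContinuousLinearMap.coe_coe, LinearMap.rTensor_tmul,
      Basis.constr_basis, ← TensorProduct.smul_tmul', map_smul, split_bs, ← onb_apply he,
      dg_basis, h1]
  exact LinearMap.congr_fun h (a ⊗ₜ c)

theorem exists_gap (hq : 0 < q) {e : Tn q (square L) ≃ₗ[ℂ] H} (he : IsTensor e) (R : ℕ) {J : ℝ}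
    (hJ : 0 < J) : ∃ (T : H →L[ℂ] H) (Ω : H), Admissible e R J T ∧ Gap T J 0 Ω := by
  classical
  let o : Fin q := ⟨0, hq⟩
  let d : ∀ X : Finset (square L), (X → Fin q) → ℝ := fun X a => if a = fun _ => o then 0 else J
  have hd : ∀ X a, 0 ≤ d X a ∧ d X a ≤ J := fun X a => by
    simp only [d]
    split_ifs
    exacts [⟨le_rfl, hJ.le⟩, ⟨hJ.le, le_rfl⟩]
  refine ⟨∑ X ∈ small L R, dg (onb he) fun s => d X fun x => s x, onb he fun _ => o,
    ⟨_, rfl, fun X _ => ⟨dg_sa _ _, dg_acts he X _, dg_norm _ _ hJ.le fun s => ?_⟩⟩,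
    gap_of hJ ((onb he).orthonormal.1 _) ?_ ?_⟩
  · rw [abs_of_nonneg (hd _ _).1]
    exact (hd _ _).2
  · simp [dg_basis, d]
  · rw [← sub_nonneg]
    apply pos_of_mat (onb he)
    have h : mat (onb he) ((∑ X ∈ small L R, dg (onb he) fun s => d X fun x => s x) -
        ((0 : ℝ) : ℂ) • 1 - (J : ℂ) • (1 - rankOne ℂ (onb he fun _ => o) (onb he fun _ => o))) =
        Matrix.diagonal fun s => (((∑ X ∈ small L R, d X fun x => s x) -
          (if s = fun _ => o then 0 else J) : ℝ) : ℂ) := by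
      ext s t
      simp only [mat_apply, sub_apply, smul_apply, sum_apply, one_apply_eq_self, rankOne_apply,
        dg_basis, ← Finset.sum_smul, inner_sub_right, inner_smul_right,
        orthonormal_iff_ite.1 (onb he).orthonormal, Matrix.diagonal_apply]
      by_cases h1 : s = t
      · subst h1
        by_cases h2 : s = fun _ => o <;> simp [h2, eq_comm]
      · by_cases h2 : s = fun _ => o
        · subst h2
          simp [h1]
        · simp [h1, h2]
    rw [h, Matrix.posSemidef_diagonal_iff]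
    intro s
    rw [Complex.zero_le_real, sub_nonneg]
    split_ifs with h2
    · exact Finset.sum_nonneg fun X _ => (hd _ _).1
    · obtain ⟨x, hx⟩ := Function.ne_iff.1 h2
      have h3 : ({x} : Finset (square L)) ∈ small L R :=
        Finset.mem_filter.2 ⟨Finset.mem_univ _, Finset.singleton_nonempty x, fun y hy z hz => by
          rw [Finset.mem_singleton.1 hy, Finset.mem_singleton.1 hz]
          simp [d1]⟩
      refine le_trans (le_of_eq ?_) (Finset.single_le_sum (fun X _ => (hd X fun x => s x).1) h3)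
      exact (if_neg fun h4 => hx (congrFun h4 ⟨x, Finset.mem_singleton_self x⟩)).symm

end Vale.Agent.P356T
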