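import Mathlib.LinearAlgebra.PiTensorProduct.Basis
import Mathlib.LinearAlgebra.PiTensorProduct.Finite
import Mathlib.LinearAlgebra.Contraction
import Mathlib.LinearAlgebra.Trace
import Mathlib.Analysis.InnerProductSpace.StarOrder
import Mathlib.Analysis.CStarAlgebra.ContinuousLinearMap
import Mathlib.Analysis.SpecialFunctions.ContinuousFunctionalCalculus.ExpLog.Basic
import Mathlib.Data.Sym.Sym2
import Mathlib.Data.Set.Card

/-!
# P356: the objects of the problem, on the tensor product of the spaces `ℂ ^ q`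
-/

open scoped TensorProduct InnerProductSpace
open Module InnerProductSpace

namespace Vale.Agent.P356U

/-- the square `Λ_L = {1, …, L}²` in `ℤ²` -/
noncomputable def square (L : ℕ) : Finset (ℤ × ℤ) := Finset.Icc 1 (L : ℤ) ×ˢ Finset.Icc 1 (L : ℤ)

/-- the sites of the square -/
abbrev Lam (L : ℕ) : Type := square L

/-- the `ℓ¹` distance -/
def d1 (x y : ℤ × ℤ) : ℤ := |x.1 - y.1| + |x.2 - y.2|

/-- the edge boundary: pairs `{x, y}` with `x ∈ A`, `y ∈ Λ_L \ A` and `|x - y|₁ = 1` -/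
def edgeBoundary {L : ℕ} (A : Finset (Lam L)) : Set (Sym2 (Lam L)) :=
  {p | ∃ x ∈ A, ∃ y ∉ A, d1 x.1 y.1 = 1 ∧ p = s(x, y)}

/-- the nonempty subsets of `Λ_L` of `ℓ¹` diameter at most `R` -/
noncomputable def small (L R : ℕ) : Finset (Finset (Lam L)) :=
  {X | X.Nonempty ∧ ∀ x ∈ X, ∀ y ∈ X, d1 x.1 y.1 ≤ R}

section Operators

variable {M N H K : Type} [AddCommGroup M] [Module ℂ M] [AddCommGroup N] [Module ℂ N]
  [NormedAddCommGroup H] [InnerProductSpace ℂ H] [NormedAddCommGroup K] [InnerProductSpace ℂ K]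

/-- bounded operators -/
abbrev Op (H : Type) [NormedAddCommGroup H] [InnerProductSpace ℂ H] : Type := H →L[ℂ] H

/-- `|Ω⟩⟨Ω|` -/
noncomputable def proj (Ω : H) : Op H := rankOne ℂ Ω Ω

/-- the trace -/
noncomputable def tr (ρ : Op H) : ℂ := LinearMap.trace ℂ H ρ.toLinearMap

/-- the lowest eigenvalue `E` of `T` is simple, with unit eigenvector `Ω`, and
`T - E ≥ Δ (1 - |Ω⟩⟨Ω|)` -/
def Gap (T : Op H) (Δ E : ℝ) (Ω : H) : Prop :=
  IsLeast {μ : ℝ | End.HasEigenvalue T.toLinearMap μ} E ∧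
    finrank ℂ (End.eigenspace T.toLinearMap E) = 1 ∧ ‖Ω‖ = 1 ∧ T Ω = (E : ℂ) • Ω ∧
      (Δ : ℂ) • (1 - proj Ω) ≤ T - (E : ℂ) • 1

/-- positive, of trace one -/
def IsState (ρ : Op H) : Prop := 0 ≤ ρ ∧ tr ρ = 1

/-- `- Tr ρ log ρ` -/
noncomputable def entropy [CompleteSpace H] (ρ : Op H) : ℂ := -tr (ρ * CFC.log ρ)

/-- the identifications `e` and `f` differ by a unitary -/
def Unitarily (e : M ≃ₗ[ℂ] H) (f : M ≃ₗ[ℂ] K) : Prop := ∃ U : H ≃ₗᵢ[ℂ] K, ∀ w, U (e w) = f w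

/-- `h = k ⊗ 1` under the identification `g` -/
def OnFirst (g : M ⊗[ℂ] N ≃ₗ[ℂ] H) (h : Op H) : Prop :=
  ∃ k : End ℂ M, ∀ a b, h (g (a ⊗ₜ b)) = g (k a ⊗ₜ b)

variable [FiniteDimensional ℂ M] [FiniteDimensional ℂ N]

variable (M N) in
/-- the partial trace over the second factor -/
noncomputable def ptrace : End ℂ (M ⊗[ℂ] N) →ₗ[ℂ] End ℂ M :=
  (TensorProduct.rid ℂ (End ℂ M)).toLinearMap ∘ₗ (LinearMap.trace ℂ N).lTensor (End ℂ M) ∘ₗ
    (homTensorHomEquiv ℂ M N M N).symm.toLinearMap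

variable (M N) in
/-- the partial trace sends `a ⊗ b` to `Tr(b) a` -/
def PtraceRule : Prop :=
  ∀ (a : End ℂ M) (b : End ℂ N), ptrace M N (TensorProduct.map a b) = LinearMap.trace ℂ N b • a

/-- `ρ` is the partial trace of `|Ω⟩⟨Ω|` over the second factor, under the identifications
`g` and `f` -/
def Marginal (g : M ⊗[ℂ] N ≃ₗ[ℂ] H) (Ω : H) (f : M ≃ₗ[ℂ] K) (ρ : Op K) : Prop :=
  ρ.toLinearMap = f.conj (ptrace M N (g.symm.conj (proj Ω).toLinearMap))

end Operators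

/-- the tensor product of copies of `ℂ ^ q`, one for each site in `V` -/
def Tn (q : ℕ) (V : Type) : Type := ⨂[ℂ] _ : V, EuclideanSpace ℂ (Fin q)

noncomputable instance tnGroup (q : ℕ) (V : Type) : AddCommGroup (Tn q V) :=
  PiTensorProduct.instAddCommGroup

noncomputable instance tnModule (q : ℕ) (V : Type) : Module ℂ (Tn q V) :=
  PiTensorProduct.instModule

instance tnFinite (q : ℕ) (V : Type) [Finite V] : FiniteDimensional ℂ (Tn q V) :=
  PiTensorProduct.finite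

/-- the product vector -/
noncomputable def tp {q : ℕ} {V : Type} (u : V → EuclideanSpace ℂ (Fin q)) : Tn q V :=
  ⨂ₜ[ℂ] x, u x

/-- linear identifications of the tensor product with `H` -/
abbrev Iso (q : ℕ) (V H : Type) [NormedAddCommGroup H] [InnerProductSpace ℂ H] : Type :=
  Tn q V ≃ₗ[ℂ] H

variable {q L : ℕ} {V H K : Type} [Fintype V] [DecidableEq V]
  [NormedAddCommGroup H] [InnerProductSpace ℂ H] [CompleteSpace H]
  [NormedAddCommGroup K] [InnerProductSpace ℂ K] [CompleteSpace K]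

/-- under `e`, the inner product of two product vectors is the product of the inner products -/
def IsTensor (e : Iso q V H) : Prop :=
  ∀ u v : V → EuclideanSpace ℂ (Fin q), ⟪e (tp u), e (tp v)⟫_ℂ = ∏ x, ⟪u x, v x⟫_ℂ

/-- grouping the factors in `X` and the factors outside `X` -/
noncomputable def split (q : ℕ) (X : Finset V) :
    Tn q X ⊗[ℂ] Tn q {x // x ∉ X} ≃ₗ[ℂ] Tn q V :=
  LinearEquiv.trans (M₂ := Tn q (X ⊕ {x // x ∉ X})) (PiTensorProduct.tmulEquiv ℂ _)
    (PiTensorProduct.reindex ℂ (fun _ => EuclideanSpace ℂ (Fin q)) (Equiv.sumCompl (· ∈ X)))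

/-- `h = k ⊗ 1` acts on the tensor factors in `X` and as the identity elsewhere -/
def ActsOn (e : Iso q V H) (X : Finset V) (h : Op H) : Prop := OnFirst (split q X ≪≫ₗ e) h

/-- admissible Hamiltonians -/
def Admissible (e : Iso q (Lam L) H) (R : ℕ) (J : ℝ) (T : Op H) : Prop :=
  ∃ h : Finset (Lam L) → Op H, T = ∑ X ∈ small L R, h X ∧
    ∀ X ∈ small L R, IsSelfAdjoint (h X) ∧ ActsOn e X (h X) ∧ ‖h X‖ ≤ J

/-- `ρ = Tr_{V \ A} |Ω⟩⟨Ω|`, an operator on the Hilbert space `K` of the factors in `A` -/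
def IsReduced (e : Iso q V H) (Ω : H) (A : Finset V) (f : Iso q A K) (ρ : Op K) : Prop :=
  Marginal (split q A ≪≫ₗ e) Ω f ρ

end Vale.Agent.P356U
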