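import Vale.Agent.P356T92.Ex
import Vale.Agent.P356T92.Stmt

/-!
# P356: the definitions of `Stmt` unfold to those of `Defs`
-/

open scoped TensorProduct
open Module

namespace Vale.Agent.P356U

variable {q L : ℕ} {V H K : Type} [Fintype V] [DecidableEq V]
  [NormedAddCommGroup H] [InnerProductSpace ℂ H] [CompleteSpace H]
  [NormedAddCommGroup K] [InnerProductSpace ℂ K] [CompleteSpace K]

omit [DecidableEq V] [CompleteSpace H] in
theorem isTensor_iff (e : Iso q V H) : IsTensor e ↔ P356T.IsTensor (q := q) (V := V) e := Iff.rfl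

omit [Fintype V] [CompleteSpace H] in
theorem actsOn_iff (e : Iso q V H) (X : Finset V) (h : Op H) :
    ActsOn e X h ↔ P356T.ActsOn (q := q) (V := V) e X h := Iff.rfl

theorem admissible_iff (e : Iso q (Lam L) H) (R : ℕ) (J : ℝ) (T : Op H) :
    Admissible e R J T ↔ P356T.Admissible (q := q) (L := L) e R J T := Iff.rfl

omit [CompleteSpace H] in
theorem gap_iff (T : Op H) (Δ E : ℝ) (Ω : H) : Gap T Δ E Ω ↔ P356T.Gap T Δ E Ω := Iff.rfl

omit [CompleteSpace H] [CompleteSpace K] in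
theorem isReduced_iff (e : Iso q V H) (Ω : H) (A : Finset V) (f : Iso q A K) (ρ : Op K) :
    IsReduced e Ω A f ρ ↔ P356T.IsReduced (q := q) (V := V) e Ω A f ρ := Iff.rfl

theorem entropy_eq (ρ : Op K) : entropy ρ = P356T.entropy ρ := rfl

theorem edgeBoundary_eq (A : Finset (Lam L)) : edgeBoundary A = P356T.edgeBoundary (L := L) A := rfl

theorem exists_tensor (q : ℕ) (V : Type) [Fintype V] [DecidableEq V] :
    ∃ e : Iso q V (EuclideanSpace ℂ (V → Fin q)), IsTensor e :=
  P356T.exists_tensor q V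

theorem unique_tensor {e : Iso q V H} {f : Iso q V K} (he : IsTensor e) (hf : IsTensor f) :
    Unitarily e f :=
  P356T.unique_tensor ((isTensor_iff e).1 he) ((isTensor_iff f).1 hf)

theorem exists_reduced (e : Iso q V H) (Ω : H) (A : Finset V) (f : Iso q A K) :
    ∃! ρ : Op K, IsReduced e Ω A f ρ :=
  P356T.exists_reduced (q := q) (V := V) e Ω A f

theorem ptrace_rule (M N : Type) [AddCommGroup M] [Module ℂ M] [FiniteDimensional ℂ M]
    [AddCommGroup N] [Module ℂ N] [FiniteDimensional ℂ N] : PtraceRule M N :=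
  P356T.ptrace_map

theorem exists_gap (hq : 0 < q) {e : Iso q (Lam L) H} (he : IsTensor e) (R : ℕ) {J : ℝ}
    (hJ : 0 < J) : ∃ (T : Op H) (Ω : H), Admissible e R J T ∧ Gap T J 0 Ω :=
  P356T.exists_gap (L := L) hq ((isTensor_iff e).1 he) R hJ

theorem main {R : ℕ} {J Δ C : ℝ} (old : P356T.Old q R J Δ C) {e : Iso q (Lam L) H}
    (he : IsTensor e) {T : Op H} (hT : Admissible e R J T) {E : ℝ} {Ω : H}
    (hg : Gap T Δ E Ω) {A : Finset (Lam L)} {f : Iso q A K} (hf : IsTensor f)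
    {ρ : Op K} (h : IsReduced e Ω A f ρ) :
    IsState ρ ∧ ∃ S : ℝ, entropy ρ = S ∧ 0 ≤ S ∧ S ≤ C * (edgeBoundary A).ncard :=
  have h0 := P356T.main (L := L) old ((isTensor_iff e).1 he) ((admissible_iff e R J T).1 hT)
    ((gap_iff T Δ E Ω).1 hg) ((isTensor_iff f).1 hf) ((isReduced_iff e Ω A f ρ).1 h)
  ⟨⟨h0.1, h0.2.1⟩, h0.2.2⟩

end Vale.Agent.P356U
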