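import Vale.Agent.P356T92.Tens

/-!
# P356: from the tensor product form to the form with matrices
-/

open scoped TensorProduct InnerProductSpace Matrix ComplexOrder
open Module InnerProductSpace

set_option linter.unusedSectionVars false

namespace Vale.Agent.P356T

open Vale.Agent.P356 (Site Conf Op dist1 GappedGround entropyOf bdry rdm vnEntropy nsq)

section General

variable {q : ℕ} {V W H K : Type} [Fintype V] [DecidableEq V] [Fintype W] [DecidableEq W]
  [NormedAddCommGroup H] [InnerProductSpace ℂ H] [CompleteSpace H]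
  [NormedAddCommGroup K] [InnerProductSpace ℂ K] [CompleteSpace K]

/-- the product basis, with the sites renamed -/
noncomputable def onbR {e : Tn q V ≃ₗ[ℂ] H} (he : IsTensor e) (σ : V ≃ W) :
    OrthonormalBasis (W → Fin q) ℂ H := (onb he).reindex (Equiv.arrowCongr σ (Equiv.refl _))

theorem onbR_apply {e : Tn q V ≃ₗ[ℂ] H} (he : IsTensor e) (σ : V ≃ W) (s : W → Fin q) :
    onbR he σ s = onb he fun x => s (σ x) := by
  rw [onbR, OrthonormalBasis.reindex_apply]
  rfl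

/-- renaming inside a set -/
def inE (σ : V ≃ W) (X : Finset V) : X ≃ (X.map σ.toEmbedding : Finset W) :=
  σ.subtypeEquiv fun x => by simp

/-- renaming outside a set -/
def outE (σ : V ≃ W) (X : Finset V) : {x // x ∉ X} ≃ {x // x ∉ X.map σ.toEmbedding} :=
  σ.subtypeEquiv fun x => by simp

theorem gl_self (X : Finset V) (s : V → Fin q) : gl X (fun x => s x, fun x => s x) = s :=
  (Equiv.piEquivPiSubtypeProd (fun x => x ∈ X) fun _ => Fin q).symm_apply_apply s

theorem gl_ren (σ : V ≃ W) (X : Finset V) (a : ↥(X.map σ.toEmbedding) → Fin q)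
    (c : {x // x ∉ X.map σ.toEmbedding} → Fin q) :
    (fun x => gl (X.map σ.toEmbedding) (a, c) (σ x)) =
      gl X (fun x => a (inE σ X x), fun x => c (outE σ X x)) := by
  funext x
  by_cases h : x ∈ X
  · simp [gl, h, inE]
  · simp [gl, h, outE]

theorem acts_mat {e : Tn q V ≃ₗ[ℂ] H} (he : IsTensor e) (σ : V ≃ W) {X : Finset V}
    {h : H →L[ℂ] H} (hX : ActsOn e X h) :
    P356.ActsOn (X.map σ.toEmbedding) (mat (onbR he σ) h) := by
  obtain ⟨k, hk⟩ := acts_entry he hX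
  refine ⟨fun a a' => k (fun x => a (inE σ X x)) fun x => a' (inE σ X x), fun s t => ?_⟩
  have h1 := hk (fun x => s (σ x)) (fun x => t (σ x)) (fun x => s (σ x)) fun x => t (σ x)
  rw [gl_self X fun x => s (σ x), gl_self X fun x => t (σ x), ← onbR_apply, ← onbR_apply,
    ← mat_apply] at h1
  refine ⟨fun h2 => ?_, fun ⟨x, hx, h2⟩ => ?_⟩
  · exact h1.trans (if_pos (funext fun x => h2 _ (outE σ X x).2))
  · rw [h1, if_neg]
    intro h3
    obtain ⟨x, rfl⟩ := σ.surjective x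
    exact h2 (congrFun h3 ⟨x, by simpa using hx⟩)

theorem mat_reduced {e : Tn q V ≃ₗ[ℂ] H} (he : IsTensor e) (σ : V ≃ W) {A : Finset V}
    {f : Tn q A ≃ₗ[ℂ] K} (hf : IsTensor f) {Ω : H} {ρ : K →L[ℂ] K} (h : IsReduced e Ω A f ρ) :
    mat (onbR hf (inE σ A)) ρ = rdm (A.map σ.toEmbedding) (co (onbR he σ) Ω) := by
  ext a a'
  rw [mat_apply, onbR_apply, onbR_apply, reduced_entry he hf h, rdm]
  refine (Fintype.sum_equiv (Equiv.arrowCongr (outE σ A) (Equiv.refl _)).symm _ _ fun c => ?_).symm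
  rw [co_apply, co_apply, onbR_apply, onbR_apply]
  exact congrArg₂ (fun s t => ⟪onb he s, Ω⟫_ℂ * star ⟪onb he t, Ω⟫_ℂ) (gl_ren σ A a c)
    (gl_ren σ A a' c)

theorem rdm_pos (A : Finset V) (ψ : Conf V q → ℂ) : (rdm A ψ).PosSemidef :=
  Matrix.posSemidef_self_mul_conjTranspose (Matrix.of fun a c => ψ (gl A (a, c)))

theorem rdm_trace (A : Finset V) (ψ : Conf V q → ℂ) : (rdm A ψ).trace = (nsq ψ : ℝ) := by
  rw [nsq, ← (gl A).sum_comp, Fintype.sum_prod_type, Matrix.trace]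
  simp only [Complex.ofReal_sum]
  refine Finset.sum_congr rfl fun a _ => Finset.sum_congr rfl fun c _ => ?_
  rw [← Complex.normSq_eq_norm_sq, ← Complex.mul_conj]
  rfl

theorem vn_nonneg {ι : Type} [Fintype ι] [DecidableEq ι] {M : Matrix ι ι ℂ} (h : M.PosSemidef)
    (h1 : M.trace = 1) : 0 ≤ vnEntropy M := by
  rw [vnEntropy, dif_pos h.1]
  have h2 : ∑ i, h.1.eigenvalues i = 1 := by
    have h3 := h.1.trace_eq_sum_eigenvalues
    rw [h1] at h3
    exact Complex.ofReal_eq_one.1 ((Complex.ofReal_sum _ _).trans h3.symm)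
  exact Finset.sum_nonneg fun i _ => Real.negMulLog_nonneg (h.eigenvalues_nonneg i)
    (h2 ▸ Finset.single_le_sum (fun j _ => h.eigenvalues_nonneg j) (Finset.mem_univ i))

end General

theorem mem_square {L : ℕ} {x : ℤ × ℤ} :
    x ∈ square L ↔ (1 ≤ x.1 ∧ x.1 ≤ L) ∧ 1 ≤ x.2 ∧ x.2 ≤ L := by
  simp [square]

/-- the two descriptions of the square -/
def sq (L : ℕ) : square L ≃ Site L where
  toFun x := (⟨(x.1.1 - 1).toNat, by have := mem_square.1 x.2; omega⟩,
    ⟨(x.1.2 - 1).toNat, by have := mem_square.1 x.2; omega⟩)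
  invFun p := ⟨((p.1 : ℤ) + 1, (p.2 : ℤ) + 1), mem_square.2 (by omega)⟩
  left_inv x := by
    have := mem_square.1 x.2
    refine Subtype.ext (Prod.ext ?_ ?_) <;> simp only <;> omega
  right_inv p := by
    refine Prod.ext (Fin.ext ?_) (Fin.ext ?_) <;> simp

theorem dist_sq {L : ℕ} (x y : square L) : (dist1 (sq L x) (sq L y) : ℤ) = d1 x.1 y.1 := by
  have := mem_square.1 x.2
  have := mem_square.1 y.2
  simp only [dist1, d1, sq, Equiv.coe_fn_mk, Int.abs_eq_natAbs]
  omega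

theorem bdry_sq {L : ℕ} (A : Finset (square L)) :
    bdry (A.map (sq L).toEmbedding) = (edgeBoundary A).ncard := by
  rw [bdry, ← Set.ncard_coe_finset]
  refine Set.ncard_congr (fun p _ => s((sq L).symm p.1, (sq L).symm p.2)) ?_ ?_ ?_
  · rintro ⟨x, y⟩ h
    obtain ⟨x, rfl⟩ := (sq L).surjective x
    obtain ⟨y, rfl⟩ := (sq L).surjective y
    simp only [Finset.coe_filter, Finset.mem_univ, true_and, Set.mem_ofPred_eq,
      Finset.mem_map_equiv, Equiv.symm_apply_apply] at h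
    exact ⟨x, h.1, y, h.2.1, by rw [← dist_sq, h.2.2]; rfl, by simp⟩
  · rintro ⟨x, y⟩ ⟨x', y'⟩ h h' h1
    simp only [Finset.coe_filter, Finset.mem_univ, true_and, Set.mem_ofPred_eq,
      Finset.mem_map_equiv] at h h'
    rcases Sym2.eq_iff.1 h1 with h2 | h2
    · exact Prod.ext ((sq L).symm.injective h2.1) ((sq L).symm.injective h2.2)
    · exact absurd (h2.1 ▸ h.1) h'.2.1
  · rintro _ ⟨x, hx, y, hy, h, rfl⟩
    refine ⟨(sq L x, sq L y), ?_, by simp⟩
    simp only [Finset.coe_filter, Finset.mem_univ, true_and, Set.mem_ofPred_eq,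
      Finset.mem_map_equiv, Equiv.symm_apply_apply]
    exact ⟨hx, hy, by have := dist_sq x y; omega⟩

variable {q L : ℕ} {H K : Type}
  [NormedAddCommGroup H] [InnerProductSpace ℂ H] [CompleteSpace H]
  [NormedAddCommGroup K] [InnerProductSpace ℂ K] [CompleteSpace K]

theorem adm_mat {e : Tn q (square L) ≃ₗ[ℂ] H} (he : IsTensor e) {R : ℕ} {J : ℝ} {T : H →L[ℂ] H}
    (hT : Admissible e R J T) : P356.Admissible L q R J (mat (onbR he (sq L)) T) := by
  obtain ⟨h, rfl, hh⟩ := hT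
  let τ := (sq L).finsetCongr
  refine ⟨fun X => if τ.symm X ∈ small L R then mat (onbR he (sq L)) (h (τ.symm X)) else 0,
    fun X => ?_, ?_⟩
  · obtain ⟨X, rfl⟩ := τ.surjective X
    simp only [Equiv.symm_apply_apply]
    split_ifs with hX
    · refine ⟨herm_mat (onbR he (sq L)) (hh X hX).1, acts_mat he _ (hh X hX).2.1,
        norm_mat (onbR he (sq L)) (hh X hX).2.2, fun _ => ?_⟩
      obtain ⟨h1, h2⟩ := (Finset.mem_filter.1 hX).2
      refine ⟨h1.map, fun x hx y hy => ?_⟩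
      obtain ⟨x', hx', rfl⟩ := Finset.mem_map.1 hx
      obtain ⟨y', hy', rfl⟩ := Finset.mem_map.1 hy
      have h3 := h2 x' hx' y' hy'
      rw [← dist_sq] at h3
      exact_mod_cast h3
    · refine ⟨Matrix.isHermitian_zero, ⟨0, fun _ _ => ⟨fun _ => rfl, fun _ => rfl⟩⟩, fun ψ => ?_,
        fun h => absurd rfl h⟩
      simpa [nsq] using mul_nonneg (sq_nonneg J) (Finset.sum_nonneg fun _ _ => sq_nonneg _)
  · rw [map_sum, ← τ.sum_comp]
    simp only [Equiv.symm_apply_apply, Finset.sum_ite_mem, Finset.univ_inter]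

/-- the form with matrices -/
def Old (q R : ℕ) (J Δ C : ℝ) : Prop :=
  ∀ (L : ℕ) (T : Op (Site L) q), P356.Admissible L q R J T →
    ∀ (E : ℝ) (Ω : Conf (Site L) q → ℂ), GappedGround T Δ E Ω →
      ∀ A : Finset (Site L), entropyOf A Ω ≤ C * (bdry A : ℝ)

theorem main {R : ℕ} {J Δ C : ℝ} (old : Old q R J Δ C) {e : Tn q (square L) ≃ₗ[ℂ] H}
    (he : IsTensor e) {T : H →L[ℂ] H} (hT : Admissible e R J T) {E : ℝ} {Ω : H}
    (hg : Gap T Δ E Ω) {A : Finset (square L)} {f : Tn q A ≃ₗ[ℂ] K} (hf : IsTensor f)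
    {ρ : K →L[ℂ] K} (h : IsReduced e Ω A f ρ) :
    0 ≤ ρ ∧ LinearMap.trace ℂ K ρ.toLinearMap = 1 ∧
      ∃ S : ℝ, entropy ρ = S ∧ 0 ≤ S ∧ S ≤ C * (edgeBoundary A).ncard := by
  have h1 := mat_reduced he (sq L) hf h
  have h2 : (mat (onbR hf (inE (sq L) A)) ρ).PosSemidef := h1 ▸ rdm_pos _ _
  have h3 : (mat (onbR hf (inE (sq L) A)) ρ).trace = 1 := by
    rw [h1, rdm_trace, nsq_co, hg.2.2.1]
    simp
  have h4 := pos_of_mat _ h2
  refine ⟨h4, (trace_mat (onbR hf (inE (sq L) A)) ρ).trans h3, _,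
    entropy_mat (onbR hf (inE (sq L) A)) (IsSelfAdjoint.of_nonneg h4), vn_nonneg h2 h3, ?_⟩
  rw [h1, ← bdry_sq]
  exact old L _ (adm_mat he hT) E _ (gapped_mat (onbR he (sq L)) hg) _

end Vale.Agent.P356T
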