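import Vale.Agent.P356T92.Core

/-!
# P356: product bases, existence and uniqueness of the Hilbert tensor product, partial trace
-/

open scoped TensorProduct InnerProductSpace Matrix
open Module InnerProductSpace

set_option linter.unusedSectionVars false

namespace Vale.Agent.P356T

variable {q : ℕ} {V H K : Type} [Fintype V] [DecidableEq V]
  [NormedAddCommGroup H] [InnerProductSpace ℂ H] [CompleteSpace H]
  [NormedAddCommGroup K] [InnerProductSpace ℂ K] [CompleteSpace K]

/-- the product basis -/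
noncomputable def bs (q : ℕ) (V : Type) [Fintype V] : Basis (V → Fin q) ℂ (Tn q V) :=
  Basis.piTensorProduct fun _ => (EuclideanSpace.basisFun (Fin q) ℂ).toBasis

theorem bs_apply (s : V → Fin q) :
    bs q V s = ⨂ₜ[ℂ] x, EuclideanSpace.basisFun (Fin q) ℂ (s x) :=
  Basis.piTensorProduct_apply _ s

theorem orth {e : Tn q V ≃ₗ[ℂ] H} (he : IsTensor e) : Orthonormal ℂ ((bs q V).map e) := by
  rw [orthonormal_iff_ite]
  intro s t
  rw [Basis.map_apply, Basis.map_apply, bs_apply, bs_apply, he]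
  simp only [orthonormal_iff_ite.1 (EuclideanSpace.basisFun (Fin q) ℂ).orthonormal]
  rw [Fintype.prod_boole]
  simp only [funext_iff]

/-- the orthonormal product basis -/
noncomputable def onb {e : Tn q V ≃ₗ[ℂ] H} (he : IsTensor e) : OrthonormalBasis (V → Fin q) ℂ H :=
  ((bs q V).map e).toOrthonormalBasis (orth he)

theorem onb_apply {e : Tn q V ≃ₗ[ℂ] H} (he : IsTensor e) (s : V → Fin q) :
    onb he s = e (bs q V s) := by
  rw [onb, Basis.coe_toOrthonormalBasis, Basis.map_apply]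

theorem inner_onb {e : Tn q V ≃ₗ[ℂ] H} (he : IsTensor e) (s : V → Fin q) (w : Tn q V) :
    ⟪onb he s, e w⟫_ℂ = (bs q V).repr w s := by
  rw [← OrthonormalBasis.repr_apply_apply, onb, Basis.coe_toOrthonormalBasis_repr]
  simp

theorem exists_tensor (q : ℕ) (V : Type) [Fintype V] [DecidableEq V] :
    ∃ e : Tn q V ≃ₗ[ℂ] EuclideanSpace ℂ (V → Fin q), IsTensor e := by
  refine ⟨(bs q V).equivFun ≪≫ₗ (WithLp.linearEquiv 2 ℂ _).symm, fun u v => ?_⟩
  have h : ∀ (u : V → EuclideanSpace ℂ (Fin q)) (s : V → Fin q),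
      (((bs q V).equivFun ≪≫ₗ (WithLp.linearEquiv 2 ℂ _).symm) (⨂ₜ[ℂ] x, u x)).ofLp s =
        ∏ x, (u x).ofLp (s x) := fun u s =>
    Basis.piTensorProduct_repr_tprod_apply _ u s
  simp only [PiLp.inner_apply, h, RCLike.inner_apply, map_prod, ← Finset.prod_mul_distrib]
  exact (Fintype.prod_sum fun (x : V) (i : Fin q) =>
    (v x).ofLp i * (starRingEnd ℂ) ((u x).ofLp i)).symm

theorem unique_tensor {e : Tn q V ≃ₗ[ℂ] H} {f : Tn q V ≃ₗ[ℂ] K} (he : IsTensor e)
    (hf : IsTensor f) : ∃ U : H ≃ₗᵢ[ℂ] K, ∀ w, U (e w) = f w := by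
  refine ⟨(onb he).repr.trans (onb hf).repr.symm, fun w => ?_⟩
  rw [LinearIsometryEquiv.trans_apply, LinearIsometryEquiv.symm_apply_eq]
  ext s
  rw [OrthonormalBasis.repr_apply_apply, OrthonormalBasis.repr_apply_apply, inner_onb, inner_onb]

/-- gluing of configurations -/
def gl (X : Finset V) : (X → Fin q) × ({x // x ∉ X} → Fin q) ≃ (V → Fin q) :=
  (Equiv.piEquivPiSubtypeProd (fun x => x ∈ X) fun _ => Fin q).symm

theorem split_tprod (X : Finset V) (u : X → EuclideanSpace ℂ (Fin q))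
    (v : {x // x ∉ X} → EuclideanSpace ℂ (Fin q)) :
    split q X ((⨂ₜ[ℂ] x, u x) ⊗ₜ (⨂ₜ[ℂ] x, v x)) =
      ⨂ₜ[ℂ] x, if h : x ∈ X then u ⟨x, h⟩ else v ⟨x, h⟩ := by
  rw [split, LinearEquiv.trans_apply, PiTensorProduct.tmulEquiv_apply,
    PiTensorProduct.reindex_tprod]
  congr 1
  funext x
  by_cases h : x ∈ X
  · rw [dif_pos h, Equiv.sumCompl_symm_apply_of_pos (p := (· ∈ X)) h]
    rfl
  · rw [dif_neg h, Equiv.sumCompl_symm_apply_of_neg (p := (· ∈ X)) h]
    rfl

theorem split_bs (X : Finset V) (a : X → Fin q) (c : {x // x ∉ X} → Fin q) :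
    split q X (bs q X a ⊗ₜ bs q _ c) = bs q V (gl X (a, c)) := by
  rw [bs_apply, bs_apply, bs_apply, split_tprod]
  congr 1
  funext x
  by_cases h : x ∈ X
  · simp [gl, h]
  · simp [gl, h]

theorem repr_split (X : Finset V) (w : Tn q X ⊗[ℂ] Tn q {x // x ∉ X}) (a : X → Fin q)
    (c : {x // x ∉ X} → Fin q) : (bs q V).repr (split q X w) (gl X (a, c)) =
      ((bs q X).tensorProduct (bs q {x // x ∉ X})).repr w (a, c) := by
  have h : ((bs q X).tensorProduct (bs q {x // x ∉ X})).map (split q X) =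
      (bs q V).reindex (gl X).symm := by
    refine Basis.eq_of_apply_eq fun p => ?_
    rw [Basis.map_apply, Basis.tensorProduct_apply', split_bs, Basis.reindex_apply]
    rfl
  have h1 := congrArg (fun b => b.repr (split q X w) (a, c)) h
  simp only [Basis.map_repr, LinearEquiv.trans_apply, LinearEquiv.symm_apply_apply,
    Basis.repr_reindex_apply, Equiv.symm_symm] at h1
  exact h1.symm

theorem acts_entry {e : Tn q V ≃ₗ[ℂ] H} (he : IsTensor e) {X : Finset V} {h : H →L[ℂ] H}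
    (hX : ActsOn e X h) : ∃ k : Matrix (X → Fin q) (X → Fin q) ℂ, ∀ a a' c c',
      ⟪onb he (gl X (a, c)), h (onb he (gl X (a', c')))⟫_ℂ = if c = c' then k a a' else 0 := by
  obtain ⟨k, hk⟩ := hX
  refine ⟨fun a a' => (bs q X).repr (k (bs q X a')) a, fun a a' c c' => ?_⟩
  rw [onb_apply he (gl X (a', c')), ← split_bs, hk, inner_onb, repr_split,
    Basis.tensorProduct_repr_tmul_apply, Basis.repr_self, Finsupp.single_apply]
  by_cases h1 : c = c'
  · simp [h1]
  · simp [h1, Ne.symm h1]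

section

variable {M N : Type} [AddCommGroup M] [Module ℂ M] [FiniteDimensional ℂ M]
  [AddCommGroup N] [Module ℂ N] [FiniteDimensional ℂ N]

theorem ptrace_map (a : End ℂ M) (b : End ℂ N) :
    ptrace M N (TensorProduct.map a b) = LinearMap.trace ℂ N b • a := by
  have h : (homTensorHomEquiv ℂ M N M N).symm (TensorProduct.map a b) = a ⊗ₜ b := by
    rw [LinearEquiv.symm_apply_eq, homTensorHomEquiv_apply, TensorProduct.homTensorHomMap_apply]
  simp [ptrace, h]

theorem ptrace_entry {α β : Type} [Fintype α] [Fintype β] [DecidableEq β] (bM : Basis α ℂ M)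
    (bN : Basis β ℂ N) (T : End ℂ (M ⊗[ℂ] N)) (a a' : α) :
    bM.repr (ptrace M N T (bM a')) a =
      ∑ c, (bM.tensorProduct bN).repr (T (bM a' ⊗ₜ bN c)) (a, c) := by
  obtain ⟨t, rfl⟩ := (homTensorHomEquiv ℂ M N M N).surjective T
  induction t with
  | zero => simp
  | add s t hs ht =>
    simp only [map_add, LinearMap.add_apply, Finsupp.add_apply, hs, ht, Finset.sum_add_distrib]
  | tmul k m =>
    rw [homTensorHomEquiv_apply, TensorProduct.homTensorHomMap_apply, ptrace_map,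
      LinearMap.trace_eq_matrix_trace ℂ bN, Matrix.trace]
    simp [LinearMap.toMatrix_apply, Finset.sum_mul]

end

theorem reduced_entry {e : Tn q V ≃ₗ[ℂ] H} (he : IsTensor e) {A : Finset V}
    {f : Tn q A ≃ₗ[ℂ] K} (hf : IsTensor f) {Ω : H} {ρ : K →L[ℂ] K} (h : IsReduced e Ω A f ρ)
    (a a' : A → Fin q) : ⟪onb hf a, ρ (onb hf a')⟫_ℂ =
      ∑ c, ⟪onb he (gl A (a, c)), Ω⟫_ℂ * star ⟪onb he (gl A (a', c)), Ω⟫_ℂ := by
  have h1 := LinearMap.congr_fun h (onb hf a')
  rw [ContinuousLinearMap.coe_coe] at h1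
  rw [h1, LinearEquiv.conj_apply_apply, inner_onb, onb_apply, LinearEquiv.symm_apply_apply,
    ptrace_entry (bs q A) (bs q {x // x ∉ A})]
  refine Finset.sum_congr rfl fun c _ => ?_
  rw [← repr_split, ← inner_onb he, LinearEquiv.conj_apply_apply, LinearEquiv.symm_symm,
    ← LinearEquiv.trans_apply, LinearEquiv.apply_symm_apply, LinearEquiv.trans_apply, split_bs,
    ← onb_apply he, ContinuousLinearMap.coe_coe, rankOne_apply, inner_smul_right, mul_comm,
    ← inner_conj_symm Ω]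
  rfl

theorem exists_reduced (e : Tn q V ≃ₗ[ℂ] H) (Ω : H) (A : Finset V) (f : Tn q A ≃ₗ[ℂ] K) :
    ∃! ρ : K →L[ℂ] K, IsReduced e Ω A f ρ := by
  have : FiniteDimensional ℂ K := Module.Finite.equiv f
  exact ⟨LinearMap.toContinuousLinearMap _, rfl, fun ρ h => ContinuousLinearMap.coe_injective h⟩

end Vale.Agent.P356T
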